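import Crest.Agent.X262.DivB81.Ctr
import Crest.Agent.X262.End95.Cl
import Crest.Agent.X262.End95.Pg
import Crest.Agent.X262.Live3.Main
import Crest.Agent.X262.Geo.Adj
import Crest.Agent.X277.Unf.Main

-- ▼ part X262/Bnd/Glue
section

/-!
# Row 262, BND (helper51): the glue

* `reg_same`, `reg_of_srf`, `div` : the set `Reg` changes only at contractions to surfaces;
* `big`  : a K3 centre of large degree lies over a conic bundle;
* `step` : one step of the Sarkisov program is balanced;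
* `birStmt_of` : `Top.BirStmt`.
-/

set_option autoImplicit false

noncomputable section

namespace Crest.Agent.X262.Bnd

open Crest.Agent.X277 Crest.Agent.X277.Lef Crest.Agent.X277.BD Crest.Agent.X277.Pst
open Crest.Agent.X277.BD.Br (On oP kP)
open Crest.Agent.X277.BD.Cyc (Rf plV)
open Crest.Agent.X262.Mod Crest.Agent.X262.Sark
open Crest.Agent.X262.Loc (cf)
open Crest.Agent.X262.Top (K3 Typ Hyp BalS Fd)

variable {K : Type} [Field K] [Algebra ℂ K] {b : Bs 4 K} {H H' H'' A : BD ℂ K} {G E : RZ ℂ K}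
  {Z Z' Y : TM b} {C : ℕ}

theorem reg_mono (h : ∀ V, Prm H' V → Prm H V) : Reg b H ⊆ Reg b H' :=
  fun _ ⟨h1, U, h2, h3⟩ => ⟨h1, U, h2, fun V hV hl hp => h3 V hV hl (h V hp)⟩

theorem reg_same (h : SameP H H') : Reg b H = Reg b H' :=
  (reg_mono fun V => (h V).2).antisymm (reg_mono fun V => (h V).1)

theorem not_prm_of_reg (h : G ∈ Reg b H) : ¬ Prm H G := h.2.choose_spec.2 G h.1 rfl

theorem Ext.prmE (e : Ext Z Y E) : Prm Z.H E := (e.prm E).2 (Or.inr rfl)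

theorem Ext.le (e : Ext Z Y E) : Reg b Z.H ⊆ Reg b Y.H :=
  reg_mono fun V h => (e.prm V).2 (Or.inl h)

variable [Algebra.EssFiniteType ℂ K]

/-- a divisor whose centre is a surface with `p_g > 0` is counted -/
theorem reg_of_srf (Y : TM b) (hG : Dvs G) (h : Srf Y.H G) : G ∈ Reg b Y.H :=
  ⟨hG, Y, h, fun V hV hl hp => by
    have h1 := (End95.prm_iff_dim_ctr Y.mod hV).1 hp
    rw [DivB.dim_ctr_congr hV hG hl, End95.PG2.dim h, DivB.dim_of_bs b] at h1
    omega⟩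

theorem srf_up (hH : IsMod H') (h : Car H' H) (hG : Dvs G) (hp : ¬ Prm H' G) (b : Bs 4 K)
    (hs : Srf H G) : Srf H' G := by
  have := Geo.essFT_Rf hG
  let α := IntermediateField.inclusion (DivB.ctr_mono (h.loc_le G))
  have h1 := dim_le α
  have h2 := Loc.dim_cen_le (d := 2) hH hG hp (DivB.dim_of_bs b)
  rw [← End95.dim_ctr hH.free hG] at h2
  rw [End95.PG2.dim hs] at h1
  exact End95.PG2.up hs α (le_antisymm h2 h1)

/-- **the counted set changes only at contractions to surfaces** -/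
theorem div (hA : DivAStmt) (hB : DivBStmt) (e : Ext Z Y E) (hG : G ∈ Reg b Y.H)
    (hZ : G ∉ Reg b Z.H) : G = E ∧ Srf Y.H E := by
  have hY := not_prm_of_reg hG
  obtain ⟨h1, U, h2, h3⟩ := hG
  obtain ⟨V, hV, hl, hp⟩ : ∃ V, Dvs V ∧ loc U.H V = loc U.H G ∧ Prm Z.H V := by
    by_contra hc
    exact hZ ⟨h1, U, h2, fun V hV hl hp => hc ⟨V, hV, hl, hp⟩⟩
  obtain rfl : V = E := ((e.prm V).1 hp).resolve_left (h3 V hV hl)
  have hw : Wit U Y.H V := ⟨DivB.srf_congr End95.pgStmt h1 hV hl.symm h2,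
    fun W hW h => h3 W hW (h.trans hl)⟩
  have h4 := hB K b U Z Y V e hw (hA K b U Z Y V e hw)
  have h5 := DivB.srf_congr End95.pgStmt hV hV h4.symm hw.1
  refine ⟨by_contra fun hc => hZ ?_, h5⟩
  have h6 : loc Y.H G = loc Y.H V := by
    refine Live3.loc_eq_of_dom Y.mod.free (fun x hx => mem_of_loc (hl ▸ h4 ▸ hx : x ∈ loc U.H G))
      fun x hx h => ?_
    have hx' : x ∈ loc U.H G := hl ▸ h4 ▸ hx
    exact lt_of_le_of_ne (RZ.le_one_iff.2 (mem_of_loc hx')) fun h' =>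
      h.ne (Live3.v_eq_one_of_loc hl hx' h')
  exact reg_of_srf Z h1 (srf_up Z.mod e.car h1 (fun h => ((e.prm G).1 h).elim hY hc) b
    (DivB.srf_congr End95.pgStmt hV h1 h6.symm h5))

theorem mem_reg (hA : DivAStmt) (hB : DivBStmt) (e : Ext Z Y E) :
    G ∈ Reg b Y.H ↔ G ∈ Reg b Z.H ∨ (G = E ∧ Srf Y.H E) := by
  refine ⟨fun h => (em _).imp_right (div hA hB e h), ?_⟩
  rintro (h | ⟨rfl, h⟩)
  · exact e.le h
  · exact reg_of_srf Y e.prmE.dvs h

/-- a K3 centre of large degree lies over a conic bundle -/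
def BigStmt : Prop := ∃ C : ℕ, ∀ (K : Type) [Field K] [Algebra ℂ K] [Algebra.EssFiniteType ℂ K]
  (b : Bs 4 K) (A : BD ℂ K) (Z : TM b) (d : DivE b A Z), NoPG K → Srf d.Y.H d.E →
    Typ C (Rf d.E) → dim ℂ (cf A) = 3 ∧ PG2 (rsd (cf A) d.E)

theorem big (hS : SubStmt) (hF : FamStmt) : BigStmt := by
  obtain ⟨C, hC⟩ := hF
  refine ⟨max C 5, fun K _ _ _ b A Z d hK hs ⟨F, _, _, _, δ, h1, ⟨k⟩, ⟨e⟩⟩ => ?_⟩
  have h2 := hC K b d.Y d.E F δ k e hK (ext_of d).prmE.dvs (le_of_max_le_left h1)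
    (hS K b A Z d F δ k e (le_of_max_le_right h1) hs)
  rwa [d.hA] at h2

/-- an end of a link changes the counted set by at most one member -/
theorem end_fin (hA : DivAStmt) (hB : DivBStmt) (h : End b A Z H) :
    Reg b Z.H ⊆ Reg b H ∧ (Reg b H \ Reg b Z.H).Finite := by
  rcases h with ⟨d, h⟩ | ⟨f, h⟩
  · rw [← reg_same h]
    exact ⟨(ext_of d).le, (Set.finite_singleton d.E).subset fun G hG =>
      (div hA hB (ext_of d) hG.1 hG.2).1⟩
  · rw [← reg_same h, reg_same f.same]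
    simp

/-- an end is a bad divisorial end, or it does not change the members of type `Typ C` -/
theorem end_cases (hA : DivAStmt) (hB : DivBStmt) (C : ℕ) (h : End b A Z H) :
    (∃ d : DivE b A Z, SameP d.Y.H H ∧ Srf d.Y.H d.E ∧ Typ C (Rf d.E)) ∨
      ∀ V, Typ C (Rf V) → (V ∈ Reg b H ↔ V ∈ Reg b Z.H) := by
  rcases h with ⟨d, h⟩ | ⟨f, h⟩
  · by_cases hb : Srf d.Y.H d.E ∧ Typ C (Rf d.E)
    · exact Or.inl ⟨d, h, hb⟩
    · refine Or.inr fun V hV => ?_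
      rw [← reg_same h, mem_reg hA hB (ext_of d)]
      exact or_iff_left fun ⟨h1, h2⟩ => hb ⟨h2, h1 ▸ hV⟩
  · exact Or.inr fun V _ => by rw [← reg_same h, reg_same f.same]

/-- a link with a bad end is balanced -/
theorem link_bad (hA : DivAStmt) (hB : DivBStmt) (hT : T3Stmt) (hZ : SameP Z.H Z'.H)
    (d : DivE b A Z) (h : SameP d.Y.H H) (hs : Srf d.Y.H d.E) (h3 : dim ℂ (cf A) = 3)
    (hp : PG2 (rsd (cf A) d.E)) (h' : End b A Z' H') : BalS C (Reg b H) (Reg b H') := by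
  obtain ⟨h1, h2⟩ := hT K b A Z Z' d hZ h3 hs hp
  rcases h' with ⟨d', h'⟩ | ⟨f, -⟩
  swap
  · exact h1.elim f
  rw [← reg_same h, ← reg_same h']
  have m1 := fun G => mem_reg (G := G) hA hB (ext_of d)
  have m2 := fun G => mem_reg (G := G) hA hB (ext_of d')
  by_cases hE : d'.E = d.E
  · have h4 : SameP d.Y.H d'.Y.H := fun V => by
      by_cases hV : V = d.E
      · exact iff_of_false (hV ▸ d.nE) (hV ▸ hE ▸ d'.nE)
      · have h5 := (d.prm V).symm.trans ((hZ V).trans (d'.prm V))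
        rwa [hE, or_iff_left hV, or_iff_left hV] at h5
    rw [reg_same h4]
    exact Top.BalS.refl _ _
  obtain ⟨h4, h5⟩ := (h2 d').resolve_left hE
  have n1 : d.E ∉ Reg b Z.H := fun h => not_prm_of_reg h (ext_of d).prmE
  have n2 : d'.E ∉ Reg b Z'.H := fun h => not_prm_of_reg h (ext_of d').prmE
  refine Top.balS_of_pair ((m1 _).2 (Or.inr ⟨rfl, hs⟩)) (fun h => ?_)
    ((m2 _).2 (Or.inr ⟨rfl, h4⟩)) (fun h => ?_) h5 fun V _ e1 e2 => ?_
  · exact ((m2 _).1 h).elim (fun h => n1 (reg_same hZ ▸ h)) fun h => hE h.1.symm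
  · exact ((m1 _).1 h).elim (fun h => n2 (reg_same hZ ▸ h)) fun h => hE h.1
  · rw [m1, m2, or_iff_left fun h => e1 h.1, or_iff_left fun h => e2 h.1, reg_same hZ]

/-- **one step is balanced** -/
theorem step (hA : DivAStmt) (hB : DivBStmt) (hT : T3Stmt)
    (hC : ∀ (A : BD ℂ K) (Z : TM b) (d : DivE b A Z), Srf d.Y.H d.E → Typ C (Rf d.E) →
      dim ℂ (cf A) = 3 ∧ PG2 (rsd (cf A) d.E)) (h : Step b H H') :
    Fd C (Reg b H) (Reg b H') ∧ BalS C (Reg b H) (Reg b H') := by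
  rcases h with h | ⟨A, Z, Z', -, hZ, -, -, h, h'⟩
  · rw [reg_same h]
    exact ⟨Top.Fd.refl _ _, Top.BalS.refl _ _⟩
  have f := end_fin hA hB h
  have f' := end_fin hA hB h'
  rw [← reg_same hZ] at f'
  refine ⟨Top.fd_of_finite (f.2.subset fun _ hV => ⟨hV.1, fun hc => hV.2 (f'.1 hc)⟩)
    (f'.2.subset fun _ hV => ⟨hV.1, fun hc => hV.2 (f.1 hc)⟩), ?_⟩
  rcases end_cases hA hB C h with ⟨d, h1, h2, h3⟩ | h1
  · exact link_bad hA hB hT hZ d h1 h2 (hC A Z d h2 h3).1 (hC A Z d h2 h3).2 h'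
  rcases end_cases hA hB C h' with ⟨d, h2, h3, h4⟩ | h2
  · exact (link_bad hA hB hT hZ.symm d h2 h3 (hC A Z' d h3 h4).1 (hC A Z' d h3 h4).2 h).symm
  · exact Top.balS_of_same fun V hV => by rw [h1 V hV, h2 V hV, reg_same hZ]

theorem exS_reg (hE : EndStmt) (P X : PModel ℂ K) {τ : RZ ℂ K → Prop}
    (hτ : ∀ V, τ V → Typ C (Rf V)) :
    Top.ExS τ (Reg b (oP P)) (Reg b (oP X)) = Top.Ex τ (oP X) (oP P) := by
  ext V
  refine ⟨fun ⟨h1, h2, h3⟩ => ⟨by_contra fun hc => h2 ?_, not_prm_of_reg h1, h3⟩,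
    fun ⟨h1, h2, h3⟩ => ⟨?_, fun h => not_prm_of_reg h h1, h3⟩⟩
  · exact hE K b X V h1.1 hc ((hτ V h3).mono (Nat.zero_le _))
  · exact hE K b P V h1.dvs h2 ((hτ V h3).mono (Nat.zero_le _))

/-- **the glue of the layers SARK and BND** -/
theorem birStmt_of (h0 : SarkStmt 3) (hE : EndStmt) (hA : DivAStmt) (hB : DivBStmt)
    (hS : SubStmt) (hF : FamStmt) (hT : T3Stmt) : Top.BirStmt := by
  obtain ⟨C, hC⟩ := big hS hF
  refine ⟨C, fun K _ _ b P X hK hP hX τ h1 h2 => ?_⟩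
  have := Geo.eft P
  have h3 := (Top.balS_of_chain (Reg b) (fun _ _ => step hA hB hT fun A Z d =>
    hC K b A Z d (End95.noPGStmt K hK)) (h0 K b P X ⟨hP.anti, hP.rho⟩ ⟨hX.anti, hX.rho⟩)).2 τ h1 h2
  rw [exS_reg hE P X h2, exS_reg hE X P h2] at h3
  exact h3.symm

end Crest.Agent.X262.Bnd
end
end

-- ▼ part X262/Bnd79/Main

/-!
# Row 262, BND (helper79): discrepancies over a centre of codimension two

* `sol_tm`   : the discrepancies of a terminal model solve the linear system of the slice;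
* `car2`, `car2Stmt` : they are at least one;
* `j1`, `j1Stmt` : a terminal extraction over a centre of codimension two is the blow-up.
-/

set_option autoImplicit false
set_option linter.unusedSectionVars false
set_option linter.style.haveILetI false

open scoped KaehlerDifferential

noncomputable section

namespace Crest.Agent.X262.Bnd79

open Crest.Agent.X277 Crest.Agent.X277.Lef Crest.Agent.X277.BD Crest.Agent.X277.Pst
open Crest.Agent.X277.BD.Br (On oP kP)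
open Crest.Agent.X277.BD.Cyc (Rf plV)
open Crest.Agent.X262.Mod Crest.Agent.X262.Sark Crest.Agent.X262.Bnd
open Crest.Agent.X262.Geo Crest.Agent.X262.Loc Crest.Agent.X262.Slc57 Crest.Agent.X262.End95
open List (replicate)
open Finset

variable {K : Type} [Field K] [Algebra ℂ K] [Algebra.EssFiniteType ℂ K] {n d : ℕ} {b : Bs n K}
  {Q : PModel ℂ K} {H : BD ℂ K} {V E : RZ ℂ K}

theorem on_of_car (h : H ∈ On Q) {a : BD ℂ K} (ha : Car H a) : a ∈ On Q :=
  car_iff_On.1 ((car_of_On h).trans Br.free_oP ha)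

theorem od_κ_eq (U : TM b) (hV : Prm (oP Q) V) (h : Prm U.H V) :
    od V (U.κ - U.r • kP Q b) = 0 := by
  rw [map_sub, sub_eq_zero]
  exact (od_eq_iff hV.dvs).2 (U.κ_eq Q V hV h)

theorem od_κ_lt (U : TM b) (hV : Prm (oP Q) V) (h : ¬ Prm U.H V) :
    od V (U.κ - U.r • kP Q b) < 0 := by
  rw [map_sub, sub_neg]
  exact (od_lt_iff hV.dvs).2 (U.κ_lt Q V hV h)

theorem dsc_neg (U : TM b) (hV : Prm (oP Q) V) (h : ¬ Prm U.H V) :
    (od V (U.κ - U.r • kP Q b) : ℚ) / U.r < 0 :=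
  div_neg_of_neg_of_pos (by exact_mod_cast od_κ_lt U hV h) (by exact_mod_cast U.r_pos)

variable (b) in
/-- the configuration of the slice -/
abbrev cg (hH : IsMod H) (hP : H ∈ On Q) (hd : dim ℂ K = d + 2) : Cfg (RZ ℂ K) :=
  cfg hH hP hd (Br.kP_mem b) (adjAt b hH.free hP hd)

section Sol

variable (hH : IsMod H) (hP : H ∈ On Q) (hd : dim ℂ K = d + 2) {G : BD ℂ K} (hG : IsMod G)
  (hc : Car G H) (hQ : G ∈ On Q) {t : Finset (RZ ℂ K)}
  (ht : ∀ V, V ∈ t ↔ V ∈ (cg b hH hP hd).s ∧ ¬ Prm G V)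
include hG hc hQ ht

open Classical in
/-- pull-backs from a model above the `H`-model -/
theorem ev_car {a a' : BD ℂ K} (ha : a ∈ On Q) (ha' : Car G a') {m : ℕ} (hm : 0 < m)
    (h : EqOn G a' (m • a)) (hV : Prm (oP Q) V) :
    (cg b hH hP hd).ev t (fun W => dg W (a :: replicate d H))
      (fun W => od W (a' - m • a) / m) V = dg V (a' :: replicate d H) / m := by
  refine cfg_ev hH hP hd _ _ ha (on_of_car hQ ha') hm hV fun W h1 h2 h3 => ?_
  have h4 : ¬ Prm G W := fun h4 => h2 (by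
    rw [map_sub, sub_eq_zero]
    exact (od_eq_iff h1.dvs).2 (h W h4))
  exact (ht W).2 ⟨mem_ex2_of_mt hH hP hd (fun h5 => h4 (hc.prm h5)) h3, h4⟩

open Classical in
theorem sol_car {a a' : BD ℂ K} (ha : a ∈ On Q) (ha' : Car G a') {m : ℕ} (hm : 0 < m)
    (h : EqOn G a' (m • a)) :
    (cg b hH hP hd).Sol t (fun W => dg W (a :: replicate d H))
      (fun W => od W (a' - m • a) / m) := fun V hV => by
  obtain ⟨h1, h2⟩ := (ht V).1 hV
  have h3 := ((mem_cfg hH hP hd _ _).1 h1).1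
  rw [ev_car hH hP hd hG hc hQ ht ha ha' hm h h3, Geo.dg_car hG.free h3.dvs h2
    (List.forall_mem_cons.2 ⟨ha', all_rp hc d⟩), Int.cast_zero, zero_div]

end Sol

theorem eqOn_κ (U : TM b) (hQ : U.H ∈ On Q) : EqOn U.H U.κ (U.r • kP Q b) := fun V hV =>
  U.κ_eq Q V ((car_of_On hQ).prm hV) hV

open Classical in
/-- the discrepancies of a terminal model above the `H`-model -/
theorem sol_tm (hH : IsMod H) (hP : H ∈ On Q) (hd : dim ℂ K = d + 2) (U : TM b) (hc : Car U.H H)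
    (hQ : U.H ∈ On Q) {t : Finset (RZ ℂ K)}
    (ht : ∀ V, V ∈ t ↔ V ∈ (cg b hH hP hd).s ∧ ¬ Prm U.H V) :
    (cg b hH hP hd).Sol t (fun j => (cg b hH hP hd).k j)
      fun W => od W (U.κ - U.r • kP Q b) / U.r :=
  (sol_car hH hP hd U.mod hc hQ ht (Br.kP_mem b) U.car U.r_pos (eqOn_κ U hQ)).congr fun j hj => by
    rw [cfg_k hH hP hd _ _ ((mem_cfg hH hP hd _ _).1 ((ht j).1 hj).1).1]

/-- discrepancies over a centre of codimension two are at least one -/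
theorem car2 (hd : dim ℂ K = d + 2) (U : TM b) (W : PModel ℂ K) (hV : Prm (oP W) V)
    (h : dim ℂ (cen U.H V) = d) : (U.r : ℤ) ≤ od V (U.r • kP W b - U.κ) := by
  classical
  obtain ⟨Q, h1, h2⟩ := Unf.exists_on_ge W {U.H}
  have hP := h2 _ (mem_singleton_self _)
  have h3 := prm_up (h1 Br.oP_mem) hV
  have h4 : ¬ Prm U.H V := fun h4 => by
    have := (prm_iff_dim_cen U.mod hV.dvs).1 h4
    omega
  have h5 := (sol_tm U.mod hP hd U (car_self U.mod.free) hP (t := (cg b U.mod hP hd).s)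
    fun V => ⟨fun h => ⟨h, ((mem_cfg U.mod hP hd _ _).1 h).2.1⟩, fun h => h.1⟩).le_neg_one
    Subset.rfl (fun i hi => dsc_neg U ((mem_cfg U.mod hP hd _ _).1 hi).1
      ((mem_cfg U.mod hP hd _ _).1 hi).2.1) V ((mem_cfg U.mod hP hd _ _).2 ⟨h3, h4, h⟩)
  rw [div_le_iff₀ (by exact_mod_cast U.r_pos)] at h5
  have h6 : od V (U.κ - U.r • kP Q b) ≤ -1 * U.r := by exact_mod_cast h5
  rw [map_sub, map_nsmul, ← od_kP_eq hV h3] at h6
  rw [map_sub, map_nsmul]
  omega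

theorem car2Stmt : Car2Stmt := fun _ _ _ _ b U W _ hV h =>
  car2 (d := 2) (dim_basis b) U W hV (dim_ctr U.mod.free hV.dvs ▸ h)

/-- a terminal extraction over a centre of codimension two -/
theorem j1 (hd : dim ℂ K = d + 2) {Z Y : TM b} (hx : Ext Z Y E) (h : dim ℂ (cen Y.H E) = d) :
    (∃ t : Rf E, Transcendental (cen Y.H E) t ∧ IntermediateField.adjoin (cen Y.H E) {t} = ⊤) ∧
      dg E (Z.κ :: replicate d Y.H) = -(Z.r * dlV Y.H E) ∧
      od E (Y.r • Z.κ - Z.r • Y.κ) = (Y.r * Z.r : ℕ) := by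
  classical
  obtain ⟨Q, h2⟩ := Unf.exists_on {Z.H}
  have hQ := h2 _ (mem_singleton_self _)
  have hP := on_of_car hQ hx.car
  have hZE : Prm Z.H E := (hx.prm E).2 (Or.inr rfl)
  have hE := (car_of_On hQ).prm hZE
  haveI := essFT_Rf hE.dvs
  have hm := fun V => mem_cfg (V := V) Y.mod hP hd (Br.kP_mem b) (adjAt b Y.mod.free hP hd)
  have he : E ∈ (cg b Y.mod hP hd).s := (hm E).2 ⟨hE, hx.nE, h⟩
  have ht : ∀ V, V ∈ (cg b Y.mod hP hd).s.erase E ↔ V ∈ (cg b Y.mod hP hd).s ∧ ¬ Prm Z.H V :=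
    fun V => by
      rw [mem_erase, hx.prm, not_or]
      exact ⟨fun h => ⟨h.2, ((hm V).1 h.2).2.1, h.1⟩, fun h => ⟨h.2.2, h.1⟩⟩
  have hZ := sol_tm Y.mod hP hd Z hx.car hQ ht
  have hY := sol_tm Y.mod hP hd Y (car_self Y.mod.free) hP (t := (cg b Y.mod hP hd).s)
    fun V => ⟨fun h => ⟨h, ((hm V).1 h).2.1⟩, fun h => h.1⟩
  obtain ⟨m, hm0, ε, hε, hε'⟩ := Z.qf (dv Q E)
  have hM := (sol_car Y.mod hP hd Z.mod hx.car hQ ht (dv_mem E) hε hm0 hε').congr
    (u' := fun j => (cg b Y.mod hP hd).M j E) fun j hj => by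
      rw [cfg_M Y.mod hP hd _ _ ((hm j).1 ((ht j).1 hj).1).1]
  have ha : ∀ i ∈ (cg b Y.mod hP hd).s.erase E, (od i (Z.κ - Z.r • kP Q b) : ℚ) / Z.r < 0 :=
    fun i hi => dsc_neg Z ((hm i).1 ((ht i).1 hi).1).1 ((ht i).1 hi).2
  obtain ⟨h3, h4, -, h5, -⟩ := Cfg.extr (erase_subset _ _) he (notMem_erase _ _) hZ ha
    ((insert_erase he).symm ▸ hY) (dsc_neg Y hE hx.nE) hM
  have hδ := dlV_pos Y.mod.free hE.dvs
  have h1 := dim_cen_one hE.dvs hd h
  refine ⟨?_, ?_, ?_⟩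
  · have h6 : 2 * (gn (cen Y.H E) (Rf E) : ℤ) - 2 ≤
        bnum [up (cen Y.H E) ((plV E).rs (kP Q b + dv Q E))] :=
      adj_up (q := plV E) (Cyc.lnr_plV E) (Cyc.surj_plV E) hE b (Pl.free_rs Y.mod.free)
        (car_rs Br.free_oP (car_of_On hP)) h1
    rw [cfg_k Y.mod hP hd _ _ hE, cfg_M Y.mod hP hd _ _ hE, ← dg_add, cfg_δ,
      dg_cen_one Y.mod.free h, mul_comm, mul_left_inj' hδ.ne'] at h5
    choose! z hz using Cfg.Sol.int (erase_subset _ _) hZ ha (Cfg.dv_k (erase_subset _ _)) hZ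
    refine exists_rat h1 (by omega) (a := up _ ((plV E).rs
      (-(kP Q b + ∑ i ∈ (cg b Y.mod hP hd).s.erase E, z i • dv Q i)))) ?_
    refine mul_left_cancel₀ hδ.ne' ?_
    rw [← dg_cen_one Y.mod.free h, dg_neg, dg_add, dg_sum, mul_one, neg_eq_iff_eq_neg]
    rw [Cfg.ev, sum_congr rfl fun i hi => by rw [hz i hi, cfg_M Y.mod hP hd _ _ hE],
      cfg_k Y.mod hP hd _ _ hE, cfg_δ] at h4
    simp only [dg_zsmul]
    exact_mod_cast h4
  · have h6 := ev_car Y.mod hP hd Z.mod hx.car hQ ht (Br.kP_mem b) Z.car Z.r_pos (eqOn_κ Z hQ) hE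
    rw [Cfg.ev, cfg_k Y.mod hP hd _ _ hE, cfg_δ] at h4
    rw [Cfg.ev, h4, eq_div_iff (by exact_mod_cast Z.r_pos.ne')] at h6
    have h7 : -dlV Y.H E * Z.r = dg E (Z.κ :: replicate d Y.H) := by exact_mod_cast h6
    rw [← h7]
    ring
  · rw [div_eq_iff (by exact_mod_cast Y.r_pos.ne')] at h3
    have h6 : od E (Y.κ - Y.r • kP Q b) = -1 * Y.r := by exact_mod_cast h3
    have h7 := od_κ_eq Z hE hZE
    simp only [map_sub, map_nsmul, nsmul_eq_mul] at h6 h7 ⊢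
    push_cast
    linear_combination (Y.r : ℤ) * h7 - (Z.r : ℤ) * h6

theorem j1Stmt : J1Stmt := fun _ _ _ _ b Z Y E hx h => by
  have hE : Dvs E := ((hx.prm E).2 (Or.inr rfl)).dvs
  obtain ⟨⟨t, h1, h2⟩, h3, h4⟩ := j1 (d := 2) (dim_basis b) hx (dim_ctr Y.mod.free hE ▸ h)
  refine ⟨?_, mul_left_cancel₀ (dlV_pos Y.mod.free hE).ne' ?_, h4⟩
  · rw [← cl_eq_cen Y.mod.free] at h1 h2
    exact ⟨((RatFunc.algEquivOfTranscendental t h1).trans
      ((IntermediateField.equivOfEq h2).trans IntermediateField.topEquiv)).symm⟩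
  · rw [← dg_eq_fdg Y.mod.free hE h, dg_neg, h3, neg_neg, mul_comm]

end Crest.Agent.X262.Bnd79
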